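import Mathlib

namespace Vale.Agent.Results.P047.CertificateBounds

open Finset

/-- The sign of a bit: `false` is `+1`, `true` is `-1`. -/
def sgn (b : Bool) : ℝ := if b then -1 else 1

/-- The character `chi S x = prod_{i in S} x_i` on the cube. -/
def chi {n : ℕ} (S : Finset (Fin n)) (x : Fin n → Bool) : ℝ := ∏ i ∈ S, sgn (x i)

/-- The Fourier coefficient of a Boolean function at `S`. -/
noncomputable def fhat {n : ℕ} (f : (Fin n → Bool) → Bool) (S : Finset (Fin n)) : ℝ :=
  (∑ x : Fin n → Bool, sgn (f x) * chi S x) / 2 ^ n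

open Classical in
/-- The degree: the largest size of a set with nonzero Fourier coefficient. -/
noncomputable def deg {n : ℕ} (f : (Fin n → Bool) → Bool) : ℕ :=
  (univ.filter fun S : Finset (Fin n) => fhat f S ≠ 0).sup Finset.card

/-- The sum of the linear Fourier coefficients. -/
noncomputable def lin {n : ℕ} (f : (Fin n → Bool) → Bool) : ℝ := ∑ i : Fin n, fhat f {i}

open Classical in
/-- Indicator of the subcube `x = +1` on `P`, `x = -1` on `Q` (codimension `|P| + |Q|`). -/
noncomputable def cube {n : ℕ} (P Q : Finset (Fin n)) (x : Fin n → Bool) : ℝ :=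
  if (∀ i ∈ P, x i = false) ∧ (∀ i ∈ Q, x i = true) then 1 else 0

section basics

variable {n : ℕ}

/-- flipping the bit `j` -/
def flp (j : Fin n) (x : Fin n → Bool) : Fin n → Bool := Function.update x j (!x j)

lemma flp_self (j : Fin n) (x : Fin n → Bool) : flp j x j = !x j := by simp [flp]

lemma flp_ne {i j : Fin n} (h : i ≠ j) (x : Fin n → Bool) : flp j x i = x i := by
  simp [flp, Function.update_of_ne h]

lemma flp_flp (j : Fin n) (x : Fin n → Bool) : flp j (flp j x) = x := by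
  funext i
  by_cases h : i = j
  · subst h; simp [flp_self]
  · simp [flp_ne h]

/-- the flip as a bijection of the cube -/
def flpEquiv (j : Fin n) : (Fin n → Bool) ≃ (Fin n → Bool) :=
  ⟨flp j, flp j, flp_flp j, flp_flp j⟩

lemma sum_eq_zero_of_flp (j : Fin n) (φ : (Fin n → Bool) → ℝ) (h : ∀ x, φ (flp j x) = - φ x) :
    ∑ x, φ x = 0 := by
  have h1 : ∑ x, φ (flp j x) = ∑ x, φ x := Equiv.sum_comp (flpEquiv j) φ
  have h2 : ∑ x, φ (flp j x) = - ∑ x, φ x := by
    rw [← Finset.sum_neg_distrib]; exact Finset.sum_congr rfl fun x _ => h x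
  linarith

lemma sgn_not (b : Bool) : sgn (!b) = - sgn b := by cases b <;> simp [sgn]

lemma sgn_sq (b : Bool) : sgn b * sgn b = 1 := by cases b <;> simp [sgn]

lemma sum_sgn_coord (i : Fin n) : ∑ x : Fin n → Bool, sgn (x i) = 0 := by
  apply sum_eq_zero_of_flp i
  intro x
  rw [flp_self, sgn_not]

lemma sum_one : ∑ _x : Fin n → Bool, (1 : ℝ) = 2 ^ n := by
  simp

lemma sum_F (f : (Fin n → Bool) → Bool) : ∑ x, sgn (f x) = 2 ^ n * fhat f ∅ := by
  unfold fhat chi
  field_simp
  simp

lemma sum_F_L (f : (Fin n → Bool) → Bool) :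
    ∑ x, sgn (f x) * ∑ i, sgn (x i) = 2 ^ n * lin f := by
  unfold lin fhat chi
  rw [Finset.mul_sum]
  simp_rw [Finset.mul_sum]
  rw [Finset.sum_comm]
  apply Finset.sum_congr rfl
  intro i _
  field_simp
  simp

lemma sum_L : ∑ x : Fin n → Bool, ∑ i, sgn (x i) = 0 := by
  rw [Finset.sum_comm]
  exact Finset.sum_eq_zero fun i _ => sum_sgn_coord i

end basics

section partA

variable {n : ℕ} {f : (Fin n → Bool) → Bool} {J : (Fin n → Bool) → Finset (Fin n)}

lemma J_flp (hJ : ∀ x y, (∀ i ∈ J x, y i = x i) → J y = J x ∧ f y = f x) {j : Fin n}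
    {x : Fin n → Bool} (hj : j ∉ J x) : J (flp j x) = J x ∧ f (flp j x) = f x := by
  apply hJ
  intro i hi
  exact flp_ne (fun h : i = j => hj (h ▸ hi)) x

lemma A1 (hJ : ∀ x y, (∀ i ∈ J x, y i = x i) → J y = J x ∧ f y = f x) (j : Fin n)
    (G : (Fin n → Bool) → ℝ) (hG : ∀ x, j ∉ J x → G (flp j x) = G x) :
    ∑ x, (if j ∈ J x then 0 else G x * sgn (x j)) = 0 := by
  apply sum_eq_zero_of_flp j
  intro x
  by_cases hj : j ∈ J x
  · have : j ∈ J (flp j x) := by
      by_contra hcon
      have h1 := (J_flp hJ hcon).1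
      rw [flp_flp] at h1
      exact hcon (h1 ▸ hj)
    simp [hj, this]
  · have h1 := (J_flp hJ hj).1
    have : j ∉ J (flp j x) := by rw [h1]; exact hj
    simp [hj, this, hG x hj, flp_self, sgn_not]

lemma A3_off (hJ : ∀ x y, (∀ i ∈ J x, y i = x i) → J y = J x ∧ f y = f x) {i j : Fin n}
    (hij : i ≠ j) :
    ∑ x, (if i ∈ J x then sgn (x i) else 0) * (if j ∈ J x then sgn (x j) else 0) = 0 := by
  have T1 : ∑ x : Fin n → Bool, sgn (x i) * sgn (x j) = 0 := by
    apply sum_eq_zero_of_flp j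
    intro x
    rw [flp_self, flp_ne hij, sgn_not]; ring
  have T2 := A1 hJ j (fun x => sgn (x i)) (fun x _ => by rw [flp_ne hij])
  have T3 := A1 hJ i (fun x => if j ∈ J x then sgn (x j) else 0) (fun x hx => by
    rw [(J_flp hJ hx).1, flp_ne hij.symm])
  have : ∀ x, (if i ∈ J x then sgn (x i) else 0) * (if j ∈ J x then sgn (x j) else 0)
      = sgn (x i) * sgn (x j) - (if j ∈ J x then 0 else sgn (x i) * sgn (x j))
        - (if i ∈ J x then 0 else (if j ∈ J x then sgn (x j) else 0) * sgn (x i)) := by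
    intro x
    by_cases h1 : i ∈ J x <;> by_cases h2 : j ∈ J x <;> simp [h1, h2, mul_comm]
  simp_rw [this]
  rw [Finset.sum_sub_distrib, Finset.sum_sub_distrib, T1, T2, T3]
  ring

lemma A3 (hJ : ∀ x y, (∀ i ∈ J x, y i = x i) → J y = J x ∧ f y = f x) :
    ∑ x, (∑ i, if i ∈ J x then sgn (x i) else 0) ^ 2 = ∑ x, ((J x).card : ℝ) := by
  have h1 : ∀ x : Fin n → Bool, (∑ i, if i ∈ J x then sgn (x i) else 0) ^ 2
      = ∑ i, ∑ j, (if i ∈ J x then sgn (x i) else 0) * (if j ∈ J x then sgn (x j) else 0) := by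
    intro x
    rw [sq, Finset.sum_mul_sum]
  simp_rw [h1]
  rw [Finset.sum_comm]
  have h2 : ∀ i : Fin n, ∑ x, ∑ j,
      (if i ∈ J x then sgn (x i) else 0) * (if j ∈ J x then sgn (x j) else 0)
      = ∑ x, (if i ∈ J x then (1 : ℝ) else 0) := by
    intro i
    rw [Finset.sum_comm, Finset.sum_eq_single i]
    · apply Finset.sum_congr rfl
      intro x _
      by_cases h : i ∈ J x <;> simp [h, sgn_sq]
    · intro j _ hj
      exact A3_off hJ hj.symm
    · intro h; exact absurd (Finset.mem_univ i) h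
  simp_rw [h2]
  rw [Finset.sum_comm]
  apply Finset.sum_congr rfl
  intro x _
  simp

lemma partA (hJ : ∀ x y, (∀ i ∈ J x, y i = x i) → J y = J x ∧ f y = f x) :
    lin f ^ 2 ≤ (1 - fhat f ∅ ^ 2) * ((∑ x, ((J x).card : ℝ)) / 2 ^ n) := by
  set μ := fhat f ∅ with hμ
  have hp : (0 : ℝ) < 2 ^ n := by positivity
  have e1 : ∑ x, (sgn (f x) - μ) * ∑ i, sgn (x i) = 2 ^ n * lin f := by
    simp_rw [sub_mul]
    rw [Finset.sum_sub_distrib, sum_F_L, ← Finset.mul_sum, sum_L]
    ring
  have e2 : ∑ x, (sgn (f x) - μ) * ∑ i, sgn (x i)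
      = ∑ x, (sgn (f x) - μ) * ∑ i, (if i ∈ J x then sgn (x i) else 0) := by
    rw [← sub_eq_zero, ← Finset.sum_sub_distrib]
    have : ∀ x, (sgn (f x) - μ) * ∑ i, sgn (x i)
        - (sgn (f x) - μ) * ∑ i, (if i ∈ J x then sgn (x i) else 0)
        = ∑ i, (if i ∈ J x then 0 else (sgn (f x) - μ) * sgn (x i)) := by
      intro x
      rw [← mul_sub, ← Finset.sum_sub_distrib, Finset.mul_sum]
      apply Finset.sum_congr rfl
      intro i _
      by_cases h : i ∈ J x <;> simp [h]
    simp_rw [this]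
    rw [Finset.sum_comm]
    apply Finset.sum_eq_zero
    intro i _
    exact A1 hJ i (fun x => sgn (f x) - μ) (fun x hx => by rw [(J_flp hJ hx).2])
  have e4 : ∑ x, (sgn (f x) - μ) ^ 2 = 2 ^ n * (1 - μ ^ 2) := by
    have : ∀ x, (sgn (f x) - μ) ^ 2 = 1 - 2 * μ * sgn (f x) + μ ^ 2 * 1 := by
      intro x
      have := sgn_sq (f x)
      nlinarith
    simp_rw [this]
    rw [Finset.sum_add_distrib, Finset.sum_sub_distrib, ← Finset.mul_sum, ← Finset.mul_sum,
      sum_one, sum_F]
    ring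
  have cs := Finset.sum_mul_sq_le_sq_mul_sq (univ : Finset (Fin n → Bool))
    (fun x => sgn (f x) - μ) (fun x => ∑ i, (if i ∈ J x then sgn (x i) else 0))
  rw [← e2, e1, e4, A3 hJ] at cs
  have : (2 ^ n : ℝ) * (2 ^ n * lin f ^ 2) ≤ 2 ^ n * ((1 - μ ^ 2) * ∑ x, ((J x).card : ℝ)) := by
    nlinarith
  have h5 := le_of_mul_le_mul_left this hp
  rw [← mul_div_assoc, le_div_iff₀ hp]
  linarith

end partA

section partB

lemma scalar (w a b : ℕ) (hab : a + b ≤ w) :
    ((a:ℝ) - b) ≤ Real.sqrt ((w + 1) / Real.exp 1) *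
      ((1 + 1 / Real.sqrt (w + 1)) ^ a * (1 - 1 / Real.sqrt (w + 1)) ^ b) := by
  set s := Real.sqrt (w+1) with hs
  have hw0 : (0:ℝ) ≤ w := Nat.cast_nonneg w
  have hs1 : 1 ≤ s := by rw [hs]; exact Real.one_le_sqrt.mpr (by linarith)
  have hs0 : 0 < s := by linarith
  have hss : s * s = w + 1 := Real.mul_self_sqrt (by positivity)
  set d := 1 / s with hd
  have hd0 : 0 < d := by positivity
  have hd1 : d ≤ 1 := by rw [hd, div_le_one hs0]; exact hs1
  have hsd : s * d = 1 := by rw [hd]; field_simp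
  rcases le_or_gt a b with hle | hlt
  · have h1 : (a:ℝ) - b ≤ 0 := by
      have : (a:ℝ) ≤ b := by exact_mod_cast hle
      linarith
    have h3 : 0 ≤ 1 - d := by linarith
    have h2 : 0 ≤ Real.sqrt ((w + 1) / Real.exp 1) * ((1 + d) ^ a * (1 - d) ^ b) := by positivity
    linarith
  · have hw : 1 ≤ w := by omega
    have hw1 : (1:ℝ) ≤ w := by exact_mod_cast hw
    have hs1' : 1 < s := by nlinarith
    have hd1' : d < 1 := by rw [hd, div_lt_one hs0]; exact hs1'
    have hlog1 : 2 * d ≤ Real.log (1 + d) - Real.log (1 - d) := by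
      have := Real.hasSum_log_sub_log_of_abs_lt_one (x := d) (by rw [abs_of_pos hd0]; exact hd1')
      have h0 := le_hasSum this 0 (fun k _ => by positivity)
      simpa using h0
    have hprod : (1 + d) * (1 - d) = w / (w + 1) := by
      have : d * d = 1 / (w + 1) := by
        rw [hd, div_mul_div_comm, hss]; norm_num
      have h2 : (1 + d) * (1 - d) = 1 - d * d := by ring
      rw [h2, this]
      field_simp
      ring
    have hlog2 : -(1 / (w:ℝ)) ≤ Real.log (1 + d) + Real.log (1 - d) := by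
      rw [← Real.log_mul (by positivity) (by linarith), hprod]
      have h1 := Real.log_le_sub_one_of_pos (x := ((w:ℝ)+1)/w) (by positivity)
      have h2 : Real.log ((w:ℝ) / (w + 1)) = - Real.log (((w:ℝ)+1)/w) := by
        rw [← Real.log_inv, inv_div]
      rw [h2]
      have h3 : ((w:ℝ)+1)/w - 1 = 1 / w := by field_simp; ring
      linarith
    have hneg : Real.log (1 + d) + Real.log (1 - d) ≤ 0 := by
      rw [← Real.log_mul (by positivity) (by linarith), hprod]
      apply Real.log_nonpos (by positivity)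
      rw [div_le_one (by positivity)]; linarith
    have hab' : (a:ℝ) + b ≤ w := by exact_mod_cast hab
    have hT : (0:ℝ) < a - b := by
      have : (b:ℝ) < a := by exact_mod_cast hlt
      linarith
    have hE : -(1/2) + ((a:ℝ) - b) * d ≤ a * Real.log (1 + d) + b * Real.log (1 - d) := by
      have e : a * Real.log (1 + d) + b * Real.log (1 - d)
          = ((a:ℝ) + b) / 2 * (Real.log (1 + d) + Real.log (1 - d))
            + ((a:ℝ) - b) / 2 * (Real.log (1 + d) - Real.log (1 - d)) := by ring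
      rw [e]
      have h1 : (w:ℝ) / 2 * (Real.log (1 + d) + Real.log (1 - d))
          ≤ ((a:ℝ) + b) / 2 * (Real.log (1 + d) + Real.log (1 - d)) := by
        apply mul_le_mul_of_nonpos_right _ hneg
        linarith
      have h2 : -(1/2) ≤ (w:ℝ) / 2 * (Real.log (1 + d) + Real.log (1 - d)) := by
        have : (w:ℝ) / 2 * (-(1 / (w:ℝ))) ≤ (w:ℝ) / 2 * (Real.log (1 + d) + Real.log (1 - d)) :=
          mul_le_mul_of_nonneg_left hlog2 (by positivity)
        have h3 : (w:ℝ) / 2 * (-(1 / (w:ℝ))) = -(1/2) := by field_simp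
        linarith
      have h3 : ((a:ℝ) - b) / 2 * (2 * d)
          ≤ ((a:ℝ) - b) / 2 * (Real.log (1 + d) - Real.log (1 - d)) :=
        mul_le_mul_of_nonneg_left hlog1 (by positivity)
      linarith
    have hpow : (1 + d) ^ a * (1 - d) ^ b
        = Real.exp (a * Real.log (1 + d) + b * Real.log (1 - d)) := by
      rw [Real.exp_add, Real.exp_nat_mul, Real.exp_nat_mul, Real.exp_log (by positivity),
        Real.exp_log (by linarith)]
    have hK : Real.sqrt ((w + 1) / Real.exp 1) = s * Real.exp (-(1/2)) := by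
      rw [Real.sqrt_div (by positivity), ← Real.exp_half, Real.exp_neg]
      rfl
    rw [hpow, hK]
    calc (a:ℝ) - b = s * (((a:ℝ) - b) * d) := by rw [mul_comm ((a:ℝ) - b), ← mul_assoc, hsd, one_mul]
      _ ≤ s * Real.exp (((a:ℝ) - b) * d - 1) := by
          apply mul_le_mul_of_nonneg_left _ hs0.le
          have := Real.add_one_le_exp (((a:ℝ) - b) * d - 1)
          linarith
      _ = s * Real.exp (-(1/2)) * Real.exp (-(1/2) + ((a:ℝ) - b) * d) := by
          rw [mul_assoc, ← Real.exp_add]; congr 2; ring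
      _ ≤ _ := by
          apply mul_le_mul_of_nonneg_left (Real.exp_le_exp.mpr hE) (by positivity)

variable {n : ℕ}

/-- the biased product weight on the cube -/
noncomputable def wt (d : ℝ) (x : Fin n → Bool) : ℝ := ∏ i, (1 + d * sgn (x i)) / 2

lemma wt_nonneg {d : ℝ} (hd : |d| ≤ 1) (x : Fin n → Bool) : 0 ≤ wt d x := by
  apply Finset.prod_nonneg
  intro i _
  have := abs_le.mp hd
  cases x i <;> simp [sgn] <;> linarith

lemma sum_prod_blocks (φ : Fin n → Bool → ℝ) :
    ∑ X : Fin n → Bool, ∏ i, φ i (X i) = ∏ i, ∑ z, φ i z := by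
  rw [Fintype.prod_sum]

lemma sum_wt (d : ℝ) : ∑ x : Fin n → Bool, wt d x = 1 := by
  unfold wt
  rw [sum_prod_blocks (fun _ b => (1 + d * sgn b) / 2)]
  apply Finset.prod_eq_one
  intro i _
  simp [sgn]
  ring

lemma wt_zero (x : Fin n → Bool) : wt 0 x = 1 / 2 ^ n := by
  unfold wt
  simp

lemma cube_eq_zero {P Q : Finset (Fin n)} (h : ¬ Disjoint P Q) (x : Fin n → Bool) :
    cube P Q x = 0 := by
  rw [Finset.not_disjoint_iff] at h
  obtain ⟨i, hP, hQ⟩ := h
  unfold cube
  rw [if_neg]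
  rintro ⟨h1, h2⟩
  have e1 := h1 i hP
  have e2 := h2 i hQ
  rw [e1] at e2
  exact absurd e2 (by simp)

lemma cube_eq_prod {P Q : Finset (Fin n)} (h : Disjoint P Q) (x : Fin n → Bool) :
    cube P Q x = ∏ i, (if i ∈ P then (if x i then (0:ℝ) else 1)
      else if i ∈ Q then (if x i then 1 else 0) else 1) := by
  unfold cube
  split_ifs with hc
  · symm
    apply Finset.prod_eq_one
    intro i _
    by_cases hP : i ∈ P
    · simp [hP, hc.1 i hP]
    · by_cases hQ : i ∈ Q
      · simp [hP, hQ, hc.2 i hQ]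
      · simp [hP, hQ]
  · symm
    rw [not_and_or] at hc
    rcases hc with hc | hc
    · push Not at hc
      obtain ⟨i, hP, hi⟩ := hc
      apply Finset.prod_eq_zero (Finset.mem_univ i)
      have : x i = true := by simpa using hi
      simp [hP, this]
    · push Not at hc
      obtain ⟨i, hQ, hi⟩ := hc
      apply Finset.prod_eq_zero (Finset.mem_univ i)
      have hP : i ∉ P := fun hP => (Finset.disjoint_left.mp h hP) hQ
      have : x i = false := by simpa using hi
      simp [hP, hQ, this]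

lemma sum_wt_cube {P Q : Finset (Fin n)} (h : Disjoint P Q) (d : ℝ) :
    ∑ x, wt d x * cube P Q x = ((1 + d) / 2) ^ P.card * ((1 - d) / 2) ^ Q.card := by
  have h1 : ∀ x : Fin n → Bool, wt d x * cube P Q x
      = ∏ i, ((1 + d * sgn (x i)) / 2 * (if i ∈ P then (if x i then (0:ℝ) else 1)
      else if i ∈ Q then (if x i then 1 else 0) else 1)) := by
    intro x
    rw [cube_eq_prod h, Finset.prod_mul_distrib]
    rfl
  simp_rw [h1]
  rw [sum_prod_blocks (fun i b => (1 + d * sgn b) / 2 * (if i ∈ P then (if b then (0:ℝ) else 1)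
      else if i ∈ Q then (if b then 1 else 0) else 1))]
  have h2 : ∀ i : Fin n, ∑ b : Bool, (1 + d * sgn b) / 2 * (if i ∈ P then (if b then (0:ℝ) else 1)
      else if i ∈ Q then (if b then 1 else 0) else 1)
      = (if i ∈ P then (1 + d) / 2 else 1) * (if i ∈ Q then (1 - d) / 2 else 1) := by
    intro i
    by_cases hP : i ∈ P
    · have hQ : i ∉ Q := Finset.disjoint_left.mp h hP
      simp [hP, hQ, sgn]
    · by_cases hQ : i ∈ Q
      · simp [hP, hQ, sgn]
        ring
      · simp [hP, hQ, sgn]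
        ring
  simp_rw [h2]
  rw [Finset.prod_mul_distrib, Finset.prod_ite_mem, Finset.prod_ite_mem, Finset.univ_inter,
    Finset.univ_inter, Finset.prod_const, Finset.prod_const]

lemma sum_cube {P Q : Finset (Fin n)} (h : Disjoint P Q) :
    ∑ x, cube P Q x = 2 ^ n * ((1 / 2) ^ P.card * (1 / 2) ^ Q.card) := by
  have := sum_wt_cube h 0
  simp_rw [wt_zero] at this
  rw [← Finset.mul_sum] at this
  have hp : (0 : ℝ) < 2 ^ n := by positivity
  have e : ∑ x, cube P Q x = 2 ^ n * (1 / 2 ^ n * ∑ x, cube P Q x) := by field_simp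
  rw [e, this]
  norm_num

lemma cube_flp {P Q : Finset (Fin n)} {i : Fin n} (hP : i ∉ P) (hQ : i ∉ Q) (x : Fin n → Bool) :
    cube P Q (flp i x) = cube P Q x := by
  unfold cube
  have h1 : (∀ k ∈ P, flp i x k = false) ↔ (∀ k ∈ P, x k = false) := by
    constructor
    · intro h k hk
      rw [← flp_ne (fun e : k = i => hP (e ▸ hk)) x]; exact h k hk
    · intro h k hk
      rw [flp_ne (fun e : k = i => hP (e ▸ hk)) x]; exact h k hk
  have h2 : (∀ k ∈ Q, flp i x k = true) ↔ (∀ k ∈ Q, x k = true) := by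
    constructor
    · intro h k hk
      rw [← flp_ne (fun e : k = i => hQ (e ▸ hk)) x]; exact h k hk
    · intro h k hk
      rw [flp_ne (fun e : k = i => hQ (e ▸ hk)) x]; exact h k hk
  simp only [h1, h2]

lemma chi_flp {S : Finset (Fin n)} {i : Fin n} (hi : i ∈ S) (x : Fin n → Bool) :
    chi S (flp i x) = - chi S x := by
  unfold chi
  rw [← Finset.mul_prod_erase S _ hi, ← Finset.mul_prod_erase S (fun k => sgn (x k)) hi,
    flp_self, sgn_not]
  have : ∏ k ∈ S.erase i, sgn (flp i x k) = ∏ k ∈ S.erase i, sgn (x k) := by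
    apply Finset.prod_congr rfl
    intro k hk
    rw [flp_ne (Finset.ne_of_mem_erase hk)]
  rw [this]
  ring

lemma sum_chi_eq_zero {S : Finset (Fin n)} (h : S ≠ ∅) : ∑ x, chi S x = 0 := by
  obtain ⟨i, hi⟩ := Finset.nonempty_iff_ne_empty.mpr h
  exact sum_eq_zero_of_flp i _ (chi_flp hi)

lemma sum_cube_chi {S P Q : Finset (Fin n)} (h : ¬ S ⊆ P ∪ Q) :
    ∑ x, cube P Q x * chi S x = 0 := by
  rw [Finset.not_subset] at h
  obtain ⟨i, hi, hPQ⟩ := h
  rw [Finset.mem_union, not_or] at hPQ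
  apply sum_eq_zero_of_flp i
  intro x
  rw [cube_flp hPQ.1 hPQ.2, chi_flp hi]
  ring

lemma sum_cube_sgn (P Q : Finset (Fin n)) (i : Fin n) :
    ∑ x, cube P Q x * sgn (x i)
      = ((if i ∈ P then (1:ℝ) else 0) - (if i ∈ Q then 1 else 0)) * ∑ x, cube P Q x := by
  by_cases hP : i ∈ P
  · by_cases hQ : i ∈ Q
    · have : ¬ Disjoint P Q := Finset.not_disjoint_iff.mpr ⟨i, hP, hQ⟩
      simp [cube_eq_zero this]
    · simp only [hP, hQ, if_true, if_false, sub_zero, one_mul]
      apply Finset.sum_congr rfl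
      intro x _
      unfold cube
      split_ifs with hc
      · simp [hc.1 i hP, sgn]
      · simp
  · by_cases hQ : i ∈ Q
    · simp only [hP, hQ, if_true, if_false, zero_sub, neg_mul, one_mul]
      rw [← Finset.sum_neg_distrib]
      apply Finset.sum_congr rfl
      intro x _
      unfold cube
      split_ifs with hc
      · simp [hc.2 i hQ, sgn]
      · simp
    · simp only [hP, hQ, if_false, sub_zero, zero_mul]
      apply sum_eq_zero_of_flp i
      intro x
      rw [cube_flp hP hQ, flp_self, sgn_not]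
      ring

lemma sum_cube_L (P Q : Finset (Fin n)) :
    ∑ x, cube P Q x * ∑ i, sgn (x i) = ((P.card : ℝ) - Q.card) * ∑ x, cube P Q x := by
  have h1 : ∑ x, cube P Q x * ∑ i, sgn (x i) = ∑ i, ∑ x, cube P Q x * sgn (x i) := by
    simp_rw [Finset.mul_sum]
    rw [Finset.sum_comm]
  rw [h1]
  simp_rw [sum_cube_sgn]
  rw [← Finset.sum_mul, Finset.sum_sub_distrib]
  simp

lemma key_le (w : ℕ) {P Q : Finset (Fin n)} (hw : P.card + Q.card ≤ w) :
    ((P.card : ℝ) - Q.card) * ∑ x, cube P Q x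
      ≤ Real.sqrt ((w + 1) / Real.exp 1) * 2 ^ n
        * ∑ x, wt (1 / Real.sqrt (w + 1)) x * cube P Q x := by
  by_cases h : Disjoint P Q
  · rw [sum_cube h, sum_wt_cube h]
    have h1 := scalar w P.card Q.card hw
    have h2 : (0 : ℝ) ≤ 2 ^ n * ((1 / 2) ^ P.card * (1 / 2) ^ Q.card) := by positivity
    have h3 := mul_le_mul_of_nonneg_right h1 h2
    refine h3.trans (le_of_eq ?_)
    rw [div_eq_mul_one_div (1 + 1 / Real.sqrt (w + 1)) 2,
      div_eq_mul_one_div (1 - 1 / Real.sqrt (w + 1)) 2, mul_pow, mul_pow]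
    ring
  · simp [cube_eq_zero h]

lemma key_ge (w : ℕ) {P Q : Finset (Fin n)} (hw : P.card + Q.card ≤ w) :
    ((Q.card : ℝ) - P.card) * ∑ x, cube P Q x
      ≤ Real.sqrt ((w + 1) / Real.exp 1) * 2 ^ n
        * ∑ x, wt (-(1 / Real.sqrt (w + 1))) x * cube P Q x := by
  by_cases h : Disjoint P Q
  · rw [sum_cube h, sum_wt_cube h]
    have h1 := scalar w Q.card P.card (by omega)
    have h2 : (0 : ℝ) ≤ 2 ^ n * ((1 / 2) ^ P.card * (1 / 2) ^ Q.card) := by positivity
    have h3 := mul_le_mul_of_nonneg_right h1 h2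
    refine h3.trans (le_of_eq ?_)
    rw [div_eq_mul_one_div (1 + -(1 / Real.sqrt (w + 1))) 2,
      div_eq_mul_one_div (1 - -(1 / Real.sqrt (w + 1))) 2, mul_pow, mul_pow]
    ring
  · simp [cube_eq_zero h]

lemma partB (w m : ℕ) (f : (Fin n → Bool) → Bool) (c : Bool) (P Q : Fin m → Finset (Fin n))
    (lam : Fin m → ℝ) (hlam : ∀ j, 0 ≤ lam j) (hw : ∀ j, (P j).card + (Q j).card ≤ w)
    (hf : ∀ x, (if f x = c then (1 : ℝ) else 0) = ∑ j, lam j * cube (P j) (Q j) x) :
    deg f ≤ w ∧ |lin f| ≤ 2 * Real.sqrt ((w + 1) / Real.exp 1) := by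
  have hp : (0 : ℝ) < 2 ^ n := by positivity
  have hF : ∀ x, sgn (f x) = sgn c * (2 * (∑ j, lam j * cube (P j) (Q j) x) - 1) := by
    intro x
    rw [← hf]
    cases f x <;> cases c <;> simp [sgn] <;> norm_num
  have gen : ∀ ψ : (Fin n → Bool) → ℝ, ∑ x, ψ x = 0 →
      ∑ x, sgn (f x) * ψ x = 2 * sgn c * ∑ j, lam j * ∑ x, cube (P j) (Q j) x * ψ x := by
    intro ψ hψ
    have h1 : ∀ x, sgn (f x) * ψ x
        = 2 * sgn c * (∑ j, lam j * (cube (P j) (Q j) x * ψ x)) - sgn c * ψ x := by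
      intro x
      rw [hF x]
      have : ∑ j, lam j * (cube (P j) (Q j) x * ψ x)
          = (∑ j, lam j * cube (P j) (Q j) x) * ψ x := by
        rw [Finset.sum_mul]
        exact Finset.sum_congr rfl fun j _ => by ring
      rw [this]
      ring
    simp_rw [h1]
    rw [Finset.sum_sub_distrib, ← Finset.mul_sum, ← Finset.mul_sum, hψ, mul_zero, sub_zero,
      Finset.sum_comm]
    simp_rw [Finset.mul_sum]
  have hmass : ∀ d : ℝ, |d| ≤ 1 → ∑ j, lam j * ∑ x, wt d x * cube (P j) (Q j) x ≤ 1 := by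
    intro d hd
    have h1 : ∑ j, lam j * ∑ x, wt d x * cube (P j) (Q j) x
        = ∑ x, wt d x * ∑ j, lam j * cube (P j) (Q j) x := by
      simp_rw [Finset.mul_sum]
      rw [Finset.sum_comm]
      apply Finset.sum_congr rfl; intro x _
      apply Finset.sum_congr rfl; intro j _
      ring
    rw [h1, ← sum_wt (n := n) d]
    apply Finset.sum_le_sum
    intro x _
    rw [← hf]
    have := wt_nonneg hd x
    split_ifs <;> simp [this]
  constructor
  · classical
    unfold deg
    apply Finset.sup_le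
    intro S hS
    have hS' : fhat f S ≠ 0 := by simpa using hS
    by_contra hcon
    push Not at hcon
    apply hS'
    have hne : S ≠ ∅ := by
      rintro rfl
      simp at hcon
    unfold fhat
    rw [gen _ (sum_chi_eq_zero hne)]
    have : ∀ j, ∑ x, cube (P j) (Q j) x * chi S x = 0 := by
      intro j
      apply sum_cube_chi
      intro hsub
      have h1 := Finset.card_le_card hsub
      have h2 := Finset.card_union_le (P j) (Q j)
      have h3 := hw j
      omega
    simp [this]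
  · set K := Real.sqrt ((w + 1) / Real.exp 1) with hK
    have hK0 : 0 ≤ K := Real.sqrt_nonneg _
    have hd : |1 / Real.sqrt ((w : ℝ) + 1)| ≤ 1 := by
      have hs1 : 1 ≤ Real.sqrt ((w : ℝ) + 1) :=
        Real.one_le_sqrt.mpr (by linarith [Nat.cast_nonneg (α := ℝ) w])
      rw [abs_of_nonneg (by positivity), div_le_one (by linarith)]
      exact hs1
    have e := gen (fun x => ∑ i, sgn (x i)) sum_L
    rw [sum_F_L] at e
    simp_rw [sum_cube_L] at e
    have up : ∑ j, lam j * (((P j).card - (Q j).card : ℝ) * ∑ x, cube (P j) (Q j) x)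
        ≤ K * 2 ^ n := by
      calc ∑ j, lam j * (((P j).card - (Q j).card : ℝ) * ∑ x, cube (P j) (Q j) x)
          ≤ ∑ j, lam j * (K * 2 ^ n * ∑ x, wt (1 / Real.sqrt (w + 1)) x * cube (P j) (Q j) x) :=
            Finset.sum_le_sum fun j _ => mul_le_mul_of_nonneg_left (key_le w (hw j)) (hlam j)
        _ = K * 2 ^ n * ∑ j, lam j * ∑ x, wt (1 / Real.sqrt (w + 1)) x * cube (P j) (Q j) x := by
            rw [Finset.mul_sum]
            exact Finset.sum_congr rfl fun j _ => by ring
        _ ≤ K * 2 ^ n * 1 := mul_le_mul_of_nonneg_left (hmass _ hd) (by positivity)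
        _ = K * 2 ^ n := mul_one _
    have lo : -∑ j, lam j * (((P j).card - (Q j).card : ℝ) * ∑ x, cube (P j) (Q j) x)
        ≤ K * 2 ^ n := by
      calc -∑ j, lam j * (((P j).card - (Q j).card : ℝ) * ∑ x, cube (P j) (Q j) x)
          = ∑ j, lam j * (((Q j).card - (P j).card : ℝ) * ∑ x, cube (P j) (Q j) x) := by
            rw [← Finset.sum_neg_distrib]
            exact Finset.sum_congr rfl fun j _ => by ring
        _ ≤ ∑ j, lam j * (K * 2 ^ n
              * ∑ x, wt (-(1 / Real.sqrt (w + 1))) x * cube (P j) (Q j) x) :=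
            Finset.sum_le_sum fun j _ => mul_le_mul_of_nonneg_left (key_ge w (hw j)) (hlam j)
        _ = K * 2 ^ n
              * ∑ j, lam j * ∑ x, wt (-(1 / Real.sqrt (w + 1))) x * cube (P j) (Q j) x := by
            rw [Finset.mul_sum]
            exact Finset.sum_congr rfl fun j _ => by ring
        _ ≤ K * 2 ^ n * 1 :=
            mul_le_mul_of_nonneg_left (hmass _ (by rw [abs_neg]; exact hd)) (by positivity)
        _ = K * 2 ^ n := mul_one _
    have habs : |∑ j, lam j * (((P j).card - (Q j).card : ℝ) * ∑ x, cube (P j) (Q j) x)|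
        ≤ K * 2 ^ n := abs_le.mpr ⟨by linarith, up⟩
    have hsc : |sgn c| = 1 := by cases c <;> simp [sgn]
    have h1 : 2 ^ n * |lin f| ≤ 2 ^ n * (2 * K) := by
      calc 2 ^ n * |lin f| = |2 ^ n * lin f| := by rw [abs_mul, abs_of_pos hp]
        _ = 2 * |∑ j, lam j * (((P j).card - (Q j).card : ℝ) * ∑ x, cube (P j) (Q j) x)| := by
            rw [e, abs_mul, abs_mul, hsc]; norm_num
        _ ≤ 2 * (K * 2 ^ n) := by linarith
        _ = 2 ^ n * (2 * K) := by ring
    exact le_of_mul_le_mul_left h1 hp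

end partB

theorem result :
    -- (A) subcube partitions: J x is the set of fixed coordinates of the subcube containing x
    (∀ (n : ℕ) (f : (Fin n → Bool) → Bool) (J : (Fin n → Bool) → Finset (Fin n)),
      (∀ x y, (∀ i ∈ J x, y i = x i) → J y = J x ∧ f y = f x) →
      lin f ^ 2 ≤ (1 - fhat f ∅ ^ 2) * ((∑ x, ((J x).card : ℝ)) / 2 ^ n)) ∧
    -- (B) one-sided nonnegative (in particular unambiguous) subcube covers of width at most w
    (∀ (n w m : ℕ) (f : (Fin n → Bool) → Bool) (c : Bool) (P Q : Fin m → Finset (Fin n))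
      (lam : Fin m → ℝ),
      (∀ j, 0 ≤ lam j) → (∀ j, (P j).card + (Q j).card ≤ w) →
      (∀ x, (if f x = c then (1 : ℝ) else 0) = ∑ j, lam j * cube (P j) (Q j) x) →
      deg f ≤ w ∧ |lin f| ≤ 2 * Real.sqrt ((w + 1) / Real.exp 1)) :=
  ⟨fun _ _ _ hJ => partA hJ, fun _ w m f c P Q lam h1 h2 h3 => partB w m f c P Q lam h1 h2 h3⟩

end Vale.Agent.Results.P047.CertificateBounds
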