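import Mathlib

namespace Vale.Agent.Results.P047.TensorTrick

open Finset

/-- The sign of a bit: `false` is `+1`, `true` is `-1`. -/
def sgn (b : Bool) : ℝ := if b then -1 else 1

/-- The character `chi S x = prod_{i in S} x_i` on the cube. -/
def chi {ι : Type} (S : Finset ι) (x : ι → Bool) : ℝ := ∏ i ∈ S, sgn (x i)

/-- The Fourier coefficient of a Boolean function at `S`. -/
noncomputable def fhat {ι : Type} [Fintype ι] [DecidableEq ι] (f : (ι → Bool) → Bool)
    (S : Finset ι) : ℝ :=
  (∑ x : ι → Bool, sgn (f x) * chi S x) / 2 ^ Fintype.card ι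

open Classical in
/-- The degree: the largest size of a set with nonzero Fourier coefficient. -/
noncomputable def deg {ι : Type} [Fintype ι] [DecidableEq ι] (f : (ι → Bool) → Bool) : ℕ :=
  (univ.filter fun S : Finset ι => fhat f S ≠ 0).sup Finset.card

/-- The sum of the linear Fourier coefficients. -/
noncomputable def lin {ι : Type} [Fintype ι] [DecidableEq ι] (f : (ι → Bool) → Bool) : ℝ :=
  ∑ i : ι, fhat f {i}

section basics

variable {ι : Type} [Fintype ι] [DecidableEq ι]

lemma sgn_sq (b : Bool) : sgn b * sgn b = 1 := by cases b <;> simp [sgn]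

lemma sgn_xor (a b : Bool) : sgn (xor a b) = sgn a * sgn b := by
  cases a <;> cases b <;> simp [sgn]

lemma sum_sgn : ∑ b : Bool, sgn b = 0 := by simp [sgn]

lemma card_le_deg (f : (ι → Bool) → Bool) (S : Finset ι) (h : fhat f S ≠ 0) :
    S.card ≤ deg f := by
  classical
  unfold deg
  exact Finset.le_sup (f := Finset.card) (by simp [h])

lemma deg_le (f : (ι → Bool) → Bool) (d : ℕ) (h : ∀ S, fhat f S ≠ 0 → S.card ≤ d) :
    deg f ≤ d := by
  classical
  unfold deg
  apply Finset.sup_le
  intro S hS
  exact h S (by simpa using hS)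

/-- chi as a product over all coordinates -/
lemma chi_eq_prod (S : Finset ι) (x : ι → Bool) :
    chi S x = ∏ i, (if i ∈ S then sgn (x i) else 1) := by
  unfold chi
  rw [Finset.prod_ite_mem, Finset.univ_inter]

/-- sum of a product function over the cube of blocks -/
lemma sum_prod_blocks {κ : Type} [Fintype κ] (φ : ι → κ → ℝ) :
    ∑ X : ι → κ, ∏ i, φ i (X i) = ∏ i, ∑ z, φ i z := by
  rw [Fintype.prod_sum]

lemma sum_chi (S : Finset ι) :
    ∑ x : ι → Bool, chi S x = if S = ∅ then 2 ^ Fintype.card ι else 0 := by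
  have : ∑ x : ι → Bool, chi S x = ∏ i, ∑ b : Bool, (if i ∈ S then sgn b else 1) := by
    rw [← sum_prod_blocks]
    exact Finset.sum_congr rfl fun x _ => chi_eq_prod S x
  rw [this]
  split_ifs with h
  · subst h
    simp
  · obtain ⟨i, hi⟩ := Finset.nonempty_iff_ne_empty.mpr h
    apply Finset.prod_eq_zero (Finset.mem_univ i)
    simp [hi, sgn]

lemma sum_chi_mul_chi (x y : ι → Bool) :
    ∑ S : Finset ι, chi S x * chi S y = if x = y then 2 ^ Fintype.card ι else 0 := by
  have h1 : ∑ S : Finset ι, chi S x * chi S y = ∏ i, (1 + sgn (x i) * sgn (y i)) := by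
    rw [Finset.prod_one_add, Finset.powerset_univ]
    apply Finset.sum_congr rfl
    intro S _
    unfold chi
    rw [Finset.prod_mul_distrib]
  rw [h1]
  split_ifs with h
  · subst h
    simp [sgn_sq]
    norm_num
  · obtain ⟨i, hi⟩ := Function.ne_iff.mp h
    apply Finset.prod_eq_zero (Finset.mem_univ i)
    revert hi
    cases x i <;> cases y i <;> simp [sgn]

/-- Fourier inversion. -/
lemma inversion (f : (ι → Bool) → Bool) (y : ι → Bool) :
    sgn (f y) = ∑ S : Finset ι, fhat f S * chi S y := by
  unfold fhat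
  have : ∑ S : Finset ι, (∑ x : ι → Bool, sgn (f x) * chi S x) / 2 ^ Fintype.card ι * chi S y
      = (∑ x : ι → Bool, sgn (f x) * ∑ S : Finset ι, chi S x * chi S y) / 2 ^ Fintype.card ι := by
    rw [Finset.sum_div]
    simp_rw [Finset.mul_sum, Finset.sum_div, Finset.sum_mul]
    rw [Finset.sum_comm]
    apply Finset.sum_congr rfl; intro x _
    apply Finset.sum_congr rfl; intro S _
    ring
  rw [this]
  simp_rw [sum_chi_mul_chi]
  simp

end basics

section composition

variable {ι κ : Type} [Fintype ι] [DecidableEq ι] [Fintype κ] [DecidableEq κ]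

/-- Block composition `f (g (x_1), ..., g (x_n))` on disjoint blocks of variables. -/
def comp (f : (ι → Bool) → Bool) (g : (κ → Bool) → Bool) : (ι × κ → Bool) → Bool :=
  fun x => f fun i => g fun j => x (i, j)

/-- the part of `U` in block `i` -/
def fib (U : Finset (ι × κ)) (i : ι) : Finset κ := univ.filter fun j => (i, j) ∈ U

/-- the blocks met by `U` -/
def supp (U : Finset (ι × κ)) : Finset ι := univ.filter fun i => fib U i ≠ ∅

lemma chi_blocks (U : Finset (ι × κ)) (x : ι × κ → Bool) :
    chi U x = ∏ i, chi (fib U i) (fun j => x (i, j)) := by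
  rw [chi_eq_prod, Fintype.prod_prod_type]
  apply Finset.prod_congr rfl
  intro i _
  rw [chi_eq_prod]
  apply Finset.prod_congr rfl
  intro j _
  simp [fib]

lemma sum_block (g : (κ → Bool) → Bool) (T : Finset κ) :
    ∑ z : κ → Bool, sgn (g z) * chi T z = 2 ^ Fintype.card κ * fhat g T := by
  unfold fhat
  field_simp

lemma comp_fhat_general (f : (ι → Bool) → Bool) (g : (κ → Bool) → Bool) (U : Finset (ι × κ)) :
    fhat (comp f g) U = ∑ S : Finset ι, fhat f S *
      ∏ i, (if i ∈ S then fhat g (fib U i) else if fib U i = ∅ then 1 else 0) := by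
  have key : ∑ x : ι × κ → Bool, sgn (comp f g x) * chi U x
      = ∑ S : Finset ι, fhat f S *
        ∏ i, ((2:ℝ) ^ Fintype.card κ *
          (if i ∈ S then fhat g (fib U i) else if fib U i = ∅ then 1 else 0)) := by
    have h1 : ∑ x : ι × κ → Bool, sgn (comp f g x) * chi U x
        = ∑ X : ι → κ → Bool, sgn (f fun i => g (X i)) * ∏ i, chi (fib U i) (X i) := by
      apply Fintype.sum_equiv (Equiv.curry ι κ Bool)
      intro x
      rw [chi_blocks]
      rfl
    rw [h1]
    have h2 : ∀ X : ι → κ → Bool, sgn (f fun i => g (X i)) * ∏ i, chi (fib U i) (X i)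
        = ∑ S : Finset ι, fhat f S *
          ∏ i, ((if i ∈ S then sgn (g (X i)) else 1) * chi (fib U i) (X i)) := by
      intro X
      rw [inversion f, Finset.sum_mul]
      apply Finset.sum_congr rfl
      intro S _
      rw [chi_eq_prod, Finset.prod_mul_distrib, mul_assoc]
    simp_rw [h2]
    rw [Finset.sum_comm]
    apply Finset.sum_congr rfl
    intro S _
    rw [← Finset.mul_sum]
    congr 1
    rw [sum_prod_blocks (fun i z => (if i ∈ S then sgn (g z) else 1) * chi (fib U i) z)]
    apply Finset.prod_congr rfl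
    intro i _
    split_ifs with hi he
    · exact sum_block g _
    · simp [he, sum_chi]
    · simp [he, sum_chi]
  unfold fhat at key ⊢
  rw [key]
  simp_rw [Finset.prod_mul_distrib]
  rw [Fintype.card_prod]
  simp only [Finset.prod_const, Finset.card_univ]
  rw [Finset.sum_div]
  apply Finset.sum_congr rfl
  intro S _
  rw [← pow_mul, mul_comm (Fintype.card κ)]
  field_simp

lemma comp_fhat (f : (ι → Bool) → Bool) (g : (κ → Bool) → Bool) (hg : fhat g ∅ = 0)
    (U : Finset (ι × κ)) :
    fhat (comp f g) U = fhat f (supp U) * ∏ i ∈ supp U, fhat g (fib U i) := by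
  rw [comp_fhat_general]
  rw [Finset.sum_eq_single (supp U)]
  · congr 1
    rw [← Finset.prod_subset (Finset.subset_univ (supp U))]
    · apply Finset.prod_congr rfl
      intro i hi
      simp [hi]
    · intro i _ hi
      have : fib U i = ∅ := by simpa [supp] using hi
      simp [hi, this]
  · intro S _ hS
    have : ∃ i, ¬ (i ∈ S ↔ i ∈ supp U) := by
      by_contra hcon
      push Not at hcon
      exact hS (Finset.ext hcon)
    obtain ⟨i, hi⟩ := this
    apply mul_eq_zero_of_right
    apply Finset.prod_eq_zero (Finset.mem_univ i)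
    by_cases hiS : i ∈ S
    · have : fib U i = ∅ := by
        have : i ∉ supp U := fun h => hi ⟨fun _ => h, fun _ => hiS⟩
        simpa [supp] using this
      simp [hiS, this, hg]
    · have : fib U i ≠ ∅ := by
        have : i ∈ supp U := by
          by_contra h
          exact hi ⟨fun h' => absurd h' hiS, fun h' => absurd h' h⟩
        simpa [supp] using this
      simp [hiS, this]
  · intro h
    exact absurd (Finset.mem_univ _) h

lemma fib_empty (i : ι) : fib (∅ : Finset (ι × κ)) i = ∅ := by simp [fib]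

lemma supp_empty : supp (∅ : Finset (ι × κ)) = ∅ := by simp [supp, fib_empty]

lemma comp_balanced (f : (ι → Bool) → Bool) (g : (κ → Bool) → Bool) (hg : fhat g ∅ = 0) :
    fhat (comp f g) ∅ = fhat f ∅ := by
  rw [comp_fhat f g hg, supp_empty]; simp

lemma fib_singleton (i i' : ι) (j : κ) :
    fib ({(i, j)} : Finset (ι × κ)) i' = if i' = i then {j} else ∅ := by
  ext j'
  by_cases h : i' = i <;> simp [fib, h]

lemma supp_singleton (i : ι) (j : κ) : supp ({(i, j)} : Finset (ι × κ)) = {i} := by
  ext i'
  by_cases h : i' = i <;> simp [supp, fib_singleton, h]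

lemma comp_lin (f : (ι → Bool) → Bool) (g : (κ → Bool) → Bool) (hg : fhat g ∅ = 0) :
    lin (comp f g) = lin f * lin g := by
  unfold lin
  rw [Fintype.sum_prod_type, Finset.sum_mul_sum]
  apply Finset.sum_congr rfl; intro i _
  apply Finset.sum_congr rfl; intro j _
  rw [comp_fhat f g hg, supp_singleton]
  simp [fib_singleton]

lemma card_eq_sum_fib (U : Finset (ι × κ)) : U.card = ∑ i ∈ supp U, (fib U i).card := by
  have h1 : U.card = ∑ i : ι, (fib U i).card := by
    rw [Finset.card_eq_sum_card_fiberwise (f := Prod.fst) (t := univ) (fun _ _ => by simp)]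
    apply Finset.sum_congr rfl
    intro i _
    apply Finset.card_bij (fun p _ => p.2)
    · intro p hp
      simp only [Finset.mem_filter] at hp
      simp only [fib, Finset.mem_filter, Finset.mem_univ, true_and]
      rw [← hp.2]; exact hp.1
    · intro p hp q hq h
      simp only [Finset.mem_filter] at hp hq
      exact Prod.ext (hp.2.trans hq.2.symm) h
    · intro j hj
      simp only [fib, Finset.mem_filter, Finset.mem_univ, true_and] at hj
      exact ⟨(i, j), by simp [hj], rfl⟩
  rw [h1]
  symm
  apply Finset.sum_subset (Finset.subset_univ _)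
  intro i _ hi
  have : fib U i = ∅ := by simpa [supp] using hi
  simp [this]

lemma comp_deg (f : (ι → Bool) → Bool) (g : (κ → Bool) → Bool) (hg : fhat g ∅ = 0) :
    deg (comp f g) ≤ deg f * deg g := by
  apply deg_le
  intro U hU
  rw [comp_fhat f g hg] at hU
  have h1 : fhat f (supp U) ≠ 0 := left_ne_zero_of_mul hU
  have h2 : ∀ i ∈ supp U, fhat g (fib U i) ≠ 0 := by
    intro i hi
    exact (Finset.prod_ne_zero_iff.mp (right_ne_zero_of_mul hU)) i hi
  rw [card_eq_sum_fib]
  calc ∑ i ∈ supp U, (fib U i).card ≤ ∑ _i ∈ supp U, deg g :=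
        Finset.sum_le_sum fun i hi => card_le_deg g _ (h2 i hi)
    _ = (supp U).card * deg g := by simp
    _ ≤ deg f * deg g := Nat.mul_le_mul_right _ (card_le_deg f _ h1)

end composition

section reindex

variable {ι κ : Type} [Fintype ι] [DecidableEq ι] [Fintype κ] [DecidableEq κ]

/-- renaming the variables along a bijection -/
def reidx (e : ι ≃ κ) (f : (ι → Bool) → Bool) : (κ → Bool) → Bool := fun y => f fun i => y (e i)

lemma reidx_fhat (e : ι ≃ κ) (f : (ι → Bool) → Bool) (S : Finset ι) :
    fhat (reidx e f) (S.map e.toEmbedding) = fhat f S := by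
  unfold fhat
  rw [Fintype.card_congr e]
  congr 1
  apply Fintype.sum_equiv (Equiv.arrowCongr e (Equiv.refl Bool)).symm
  intro y
  simp only [reidx, chi, Equiv.arrowCongr, Finset.prod_map]
  rfl

lemma reidx_fhat' (e : ι ≃ κ) (f : (ι → Bool) → Bool) (T : Finset κ) :
    fhat (reidx e f) T = fhat f (T.map e.symm.toEmbedding) := by
  rw [← reidx_fhat e f]
  congr 1
  ext j
  simp

lemma reidx_lin (e : ι ≃ κ) (f : (ι → Bool) → Bool) : lin (reidx e f) = lin f := by
  unfold lin
  symm
  apply Fintype.sum_equiv e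
  intro i
  rw [← reidx_fhat e f]
  simp

lemma reidx_deg (e : ι ≃ κ) (f : (ι → Bool) → Bool) : deg (reidx e f) ≤ deg f := by
  apply deg_le
  intro T hT
  rw [reidx_fhat'] at hT
  simpa using card_le_deg f _ hT

lemma reidx_mean (e : ι ≃ κ) (f : (ι → Bool) → Bool) : fhat (reidx e f) ∅ = fhat f ∅ := by
  rw [reidx_fhat']; simp

end reindex

section oddization

variable {ι : Type} [Fintype ι] [DecidableEq ι]

/-- The odd function `(x0, x) ↦ (± x0) f ((± x0) x)` in one more variable (`b` chooses the sign). -/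
def oddize (b : Bool) (f : (ι → Bool) → Bool) : (Option ι → Bool) → Bool :=
  fun x => xor (xor (x none) b) (f fun i => xor (xor (x none) b) (x (some i)))

lemma chi_xor (S : Finset ι) (t : Bool) (z : ι → Bool) :
    chi S (fun i => xor t (z i)) = sgn t ^ S.card * chi S z := by
  unfold chi
  simp_rw [sgn_xor]
  rw [Finset.prod_mul_distrib, Finset.prod_const]

lemma chi_option (T : Finset (Option ι)) (x : Option ι → Bool) :
    chi T x = (if none ∈ T then sgn (x none) else 1) * chi T.eraseNone (fun i => x (some i)) := by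
  rw [chi_eq_prod, Fintype.prod_option, chi_eq_prod]
  simp

lemma sum_xor_shift (f : (ι → Bool) → Bool) (S : Finset ι) (t : Bool) :
    ∑ z : ι → Bool, sgn (f fun i => xor t (z i)) * chi S z
      = sgn t ^ S.card * ∑ z : ι → Bool, sgn (f z) * chi S z := by
  rw [Finset.mul_sum]
  let e : (ι → Bool) ≃ (ι → Bool) :=
    { toFun := fun z i => xor t (z i)
      invFun := fun z i => xor t (z i)
      left_inv := fun z => by funext i; simp
      right_inv := fun z => by funext i; simp }
  apply Fintype.sum_equiv e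
  intro z
  have h : chi S (e z) = sgn t ^ S.card * chi S z := chi_xor S t z
  rw [h]
  have h2 : sgn t ^ S.card * (sgn t ^ S.card) = 1 := by
    rw [← mul_pow, sgn_sq, one_pow]
  have h3 : (fun i => xor t (z i)) = e z := rfl
  rw [h3]
  calc sgn (f (e z)) * chi S z = sgn (f (e z)) * chi S z * (sgn t ^ S.card * (sgn t ^ S.card)) := by
        rw [h2, mul_one]
    _ = _ := by ring

lemma oddize_fhat (b : Bool) (f : (ι → Bool) → Bool) (T : Finset (Option ι)) :
    fhat (oddize b f) T = fhat f T.eraseNone *
      (if none ∈ T then (if Even T.eraseNone.card then sgn b else 0)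
        else (if Odd T.eraseNone.card then 1 else 0)) := by
  have key : ∑ x : Option ι → Bool, sgn (oddize b f x) * chi T x
      = ∑ c : Bool, (sgn (xor c b) * (if none ∈ T then sgn c else 1) *
          sgn (xor c b) ^ T.eraseNone.card) * ∑ z : ι → Bool, sgn (f z) * chi T.eraseNone z := by
    rw [Fintype.sum_equiv (Equiv.piOptionEquivProd (β := fun _ => Bool)) _
      (fun p : Bool × (ι → Bool) => sgn (xor p.1 b) * sgn (f fun i => xor (xor p.1 b) (p.2 i)) *
        ((if none ∈ T then sgn p.1 else 1) * chi T.eraseNone p.2))]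
    · rw [Fintype.sum_prod_type]
      apply Finset.sum_congr rfl
      intro c _
      rw [mul_assoc, ← sum_xor_shift, Finset.mul_sum]
      apply Finset.sum_congr rfl
      intro z _
      ring
    · intro x
      rw [chi_option]
      simp only [oddize, sgn_xor, Equiv.piOptionEquivProd_apply]
  unfold fhat
  rw [key, ← Finset.sum_mul, Fintype.card_option, pow_succ]
  have hs : ∑ c : Bool, (sgn (xor c b) * (if none ∈ T then sgn c else 1) *
          sgn (xor c b) ^ T.eraseNone.card)
      = 2 * (if none ∈ T then (if Even T.eraseNone.card then sgn b else 0)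
        else (if Odd T.eraseNone.card then 1 else 0)) := by
    rcases Nat.even_or_odd T.eraseNone.card with he | ho
    · have hno : ¬ Odd T.eraseNone.card := Nat.not_odd_iff_even.mpr he
      cases b <;> by_cases hn : none ∈ T <;> simp [sgn, hn, he, hno, he.neg_one_pow] <;> norm_num
    · have hne : ¬ Even T.eraseNone.card := Nat.not_even_iff_odd.mpr ho
      cases b <;> by_cases hn : none ∈ T <;> simp [sgn, hn, ho, hne, ho.neg_one_pow] <;> norm_num
  rw [hs]
  field_simp

lemma oddize_mean (b : Bool) (f : (ι → Bool) → Bool) : fhat (oddize b f) ∅ = 0 := by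
  rw [oddize_fhat]; simp

lemma oddize_lin (b : Bool) (f : (ι → Bool) → Bool) :
    lin (oddize b f) = lin f + sgn b * fhat f ∅ := by
  unfold lin
  rw [Fintype.sum_option, oddize_fhat]
  have : ∀ i : ι, fhat (oddize b f) {some i} = fhat f {i} := by
    intro i
    rw [oddize_fhat]
    have : ({some i} : Finset (Option ι)).eraseNone = {i} := by
      ext j; simp [eq_comm]
    simp [this]
  simp_rw [this]
  simp
  ring

lemma oddize_deg (b : Bool) (f : (ι → Bool) → Bool) : deg (oddize b f) ≤ deg f + 1 := by
  apply deg_le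
  intro T hT
  rw [oddize_fhat] at hT
  have h1 := card_le_deg f _ (left_ne_zero_of_mul hT)
  by_cases hn : none ∈ T
  · have := Finset.card_eraseNone_of_mem hn
    omega
  · have := Finset.card_eraseNone_of_not_mem hn
    omega

lemma oddize_deg_odd (b : Bool) (f : (ι → Bool) → Bool) (hodd : Odd (deg f)) :
    deg (oddize b f) ≤ deg f := by
  apply deg_le
  intro T hT
  rw [oddize_fhat] at hT
  have h1 := card_le_deg f _ (left_ne_zero_of_mul hT)
  have h2 := right_ne_zero_of_mul hT
  by_cases hn : none ∈ T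
  · have hc := Finset.card_eraseNone_of_mem hn
    have hpos : 0 < T.card := Finset.card_pos.mpr ⟨none, hn⟩
    simp only [hn, if_true] at h2
    have he : Even T.eraseNone.card := by
      by_contra hcon
      simp [hcon] at h2
    have hne : T.eraseNone.card ≠ deg f := by
      intro h
      rw [h] at he
      exact (Nat.not_even_iff_odd.mpr hodd) he
    omega
  · have := Finset.card_eraseNone_of_not_mem hn
    omega

end oddization

section main

variable {ι : Type} [Fintype ι] [DecidableEq ι]

lemma amplify (f : (ι → Bool) → Bool) (hf : fhat f ∅ = 0) (k : ℕ) :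
    ∃ (m : ℕ) (g : (Fin m → Bool) → Bool),
      fhat g ∅ = 0 ∧ lin g = lin f ^ (k + 1) ∧ deg g ≤ deg f ^ (k + 1) := by
  induction k with
  | zero =>
    refine ⟨Fintype.card ι, reidx (Fintype.equivFin ι) f, ?_, ?_, ?_⟩
    · rw [reidx_mean, hf]
    · rw [reidx_lin]; simp
    · simpa using reidx_deg (Fintype.equivFin ι) f
  | succ k ih =>
    obtain ⟨m, g, h0, h1, h2⟩ := ih
    refine ⟨Fintype.card (Fin m × ι), reidx (Fintype.equivFin (Fin m × ι)) (comp g f), ?_, ?_, ?_⟩
    · rw [reidx_mean, comp_balanced g f hf, h0]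
    · rw [reidx_lin, comp_lin g f hf, h1]; ring
    · calc deg (reidx (Fintype.equivFin (Fin m × ι)) (comp g f)) ≤ deg (comp g f) := reidx_deg _ _
        _ ≤ deg g * deg f := comp_deg g f hf
        _ ≤ deg f ^ (k + 1) * deg f := Nat.mul_le_mul_right _ h2
        _ = deg f ^ (k + 1 + 1) := (pow_succ _ _).symm

lemma sqrt_pow_nat (d k : ℕ) : Real.sqrt ((d ^ k : ℕ) : ℝ) = Real.sqrt d ^ k := by
  have h : ((d ^ k : ℕ) : ℝ) = (Real.sqrt d ^ k) ^ 2 := by
    rw [← pow_mul, mul_comm, pow_mul, Real.sq_sqrt (Nat.cast_nonneg d)]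
    push_cast
    rfl
  rw [h, Real.sqrt_sq (pow_nonneg (Real.sqrt_nonneg _) _)]

lemma strong_of_weak (C : ℝ)
    (hC : ∀ (n : ℕ) (f : (Fin n → Bool) → Bool), lin f ≤ C * Real.sqrt (deg f))
    (f : (ι → Bool) → Bool) (hf : fhat f ∅ = 0) : lin f ≤ Real.sqrt (deg f) := by
  by_contra hcon
  push Not at hcon
  set s := Real.sqrt (deg f) with hs
  have hs0 : 0 ≤ s := Real.sqrt_nonneg _
  have hW : 0 < lin f := lt_of_le_of_lt hs0 hcon
  have hbound : ∀ k : ℕ, lin f ^ (k + 1) ≤ max C 0 * s ^ (k + 1) := by
    intro k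
    obtain ⟨m, g, _, h1, h2⟩ := amplify f hf k
    calc lin f ^ (k + 1) = lin g := h1.symm
      _ ≤ C * Real.sqrt (deg g) := hC m g
      _ ≤ max C 0 * Real.sqrt (deg g) :=
          mul_le_mul_of_nonneg_right (le_max_left _ _) (Real.sqrt_nonneg _)
      _ ≤ max C 0 * Real.sqrt ((deg f ^ (k + 1) : ℕ) : ℝ) :=
          mul_le_mul_of_nonneg_left (Real.sqrt_le_sqrt (by exact_mod_cast h2)) (le_max_right _ _)
      _ = max C 0 * s ^ (k + 1) := by rw [sqrt_pow_nat]
  rcases eq_or_lt_of_le hs0 with h0 | hpos
  · have := hbound 0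
    rw [← h0] at this
    simp at this
    linarith
  · have hr : 1 < lin f / s := by rwa [one_lt_div hpos]
    obtain ⟨n, hn⟩ := pow_unbounded_of_one_lt (max C 0) hr
    have h1 : (lin f / s) ^ n ≤ (lin f / s) ^ (n + 1) := pow_le_pow_right₀ hr.le (Nat.le_succ n)
    have h2 : (lin f / s) ^ (n + 1) ≤ max C 0 := by
      rw [div_pow, div_le_iff₀ (pow_pos hpos _)]
      exact hbound n
    linarith

end main

/-- Amplification by iterated block composition, and self-improvement of the weak form. -/
theorem result :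
    (∀ (n : ℕ) (f : (Fin n → Bool) → Bool), fhat f ∅ = 0 → ∀ k : ℕ,
      ∃ (m : ℕ) (g : (Fin m → Bool) → Bool),
        fhat g ∅ = 0 ∧ lin g = lin f ^ (k + 1) ∧ deg g ≤ deg f ^ (k + 1)) ∧
    ((∃ C : ℝ, ∀ (n : ℕ) (f : (Fin n → Bool) → Bool), lin f ≤ C * Real.sqrt (deg f)) →
      ∀ (n : ℕ) (f : (Fin n → Bool) → Bool),
        (fhat f ∅ = 0 → lin f ≤ Real.sqrt (deg f)) ∧
        (Odd (deg f) → lin f + |fhat f ∅| ≤ Real.sqrt (deg f)) ∧
        lin f + |fhat f ∅| ≤ Real.sqrt (deg f + 1)) := by
  refine ⟨fun n f hf k => amplify f hf k, ?_⟩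
  rintro ⟨C, hC⟩ n f
  have hodd : ∀ b : Bool, lin f + sgn b * fhat f ∅ ≤ Real.sqrt (deg (oddize b f)) := by
    intro b
    rw [← oddize_lin]
    exact strong_of_weak C hC (oddize b f) (oddize_mean b f)
  have habs : ∀ t : ℝ, (∀ b : Bool, lin f + sgn b * fhat f ∅ ≤ t) → lin f + |fhat f ∅| ≤ t := by
    intro t ht
    have h1 := ht false
    have h2 := ht true
    simp only [sgn] at h1 h2
    rcases abs_cases (fhat f ∅) with h | h <;> rw [h.1] <;> simp at h1 h2 <;> linarith
  refine ⟨strong_of_weak C hC f, ?_, ?_⟩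
  · intro ho
    apply habs
    intro b
    exact (hodd b).trans (Real.sqrt_le_sqrt (by exact_mod_cast oddize_deg_odd b f ho))
  · apply habs
    intro b
    exact (hodd b).trans (Real.sqrt_le_sqrt (by exact_mod_cast oddize_deg b f))

end Vale.Agent.Results.P047.TensorTrick
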